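import Vale.Agent.P354V.Step
import Vale.Agent.P354I.Defs

/-!
P354 (helper51): future curves extend to the past without end point; developments which contain
a development without future extension have no future extension.
-/

open scoped ContDiff
open Set Filter Topology Metric

namespace Vale.Agent.P354V

section
open Vale.Agent.P354p

variable {M N N' : Spc} {Reg : (R4 → ℝ) → Set R4 → Prop}

/-- The times of the construction. -/
noncomputable def tm (k : ℕ) : ℝ := 1 / ((k : ℝ) + 2)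

theorem tm_pos (k : ℕ) : 0 < tm k := by unfold tm; positivity

theorem tm_anti {j k : ℕ} (h : j < k) : tm k < tm j :=
  one_div_lt_one_div_of_lt (by positivity) (by
    have : (j : ℝ) < k := by exact_mod_cast h
    linarith)

theorem tm_le {j k : ℕ} (h : j ≤ k) : tm k ≤ tm j := by
  rcases h.eq_or_lt with k | k
  · rw [k]
  · exact (tm_anti k).le

theorem tm_zero : tm 0 = 1 / 2 := by simp [tm]

theorem tm_small {t : ℝ} (ht : 0 < t) : tm ⌈1 / t⌉₊ < t := by
  have h := Nat.le_ceil (1 / t)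
  rw [div_le_iff₀ ht] at h
  unfold tm
  rw [div_lt_iff₀ (by positivity)]
  linarith

theorem past_ext (hR : ∀ f D, Reg f D → ContinuousOn f D) (hN : IsSpacetime Reg N)
    [LindelofSpace N.pt] {a : ℝ → N.pt} (ha : IsFutureCurve N 0 (Ico 0 1) a) :
    ∃ b, IsFutureCurve N 0 (Ioo 0 1) b ∧ (∀ t, 1 / 2 ≤ t → b t = a t) ∧
      ∀ x, ¬ Tendsto b (𝓝[>] 0) (𝓝 x) := by
  choose U hU hU' using exists_small hR hN
  obtain ⟨S, hS, hS'⟩ := LindelofSpace.elim_nhds_subcover (fun p => interior (U p))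
    fun p => interior_mem_nhds.2 (hU' p)
  obtain ⟨f, rfl⟩ := hS.exists_eq_range (by
    obtain ⟨p, hp, -⟩ := mem_iUnion₂.1 (hS' ▸ mem_univ (a 0))
    exact ⟨p, hp⟩)
  have lt1 : ∀ k, tm k < 1 := fun k => (tm_le (Nat.zero_le k)).trans_lt (by rw [tm_zero]; norm_num)
  have st : ∀ (k : ℕ) (b : {b // Fut N (tm k) b}), ∃ b' : {b // Fut N (tm (k + 1)) b},
      (∀ t, tm k ≤ t → b'.1 t = b.1 t) ∧
      (b'.1 (tm k) ∉ U (f k.unpair.1) ∨ b'.1 (tm (k + 1)) ∉ U (f k.unpair.1)) := by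
    intro k b
    by_cases c : b.1 (tm k) ∈ U (f k.unpair.1)
    · obtain ⟨b', h1, h2, h3⟩ := step hR hN (hU _) (lt1 k) (tm_anti k.lt_succ_self) b.2 c
      exact ⟨⟨b', h1⟩, h2, Or.inr h3⟩
    · obtain ⟨b', h1, h2, -⟩ := step hR hN (hU _) (lt1 k) (tm_anti k.lt_succ_self) b.2
        (mem_of_mem_nhds (hU' _))
      exact ⟨⟨b', h1⟩, h2, Or.inl fun k' => c (h2 _ le_rfl ▸ k')⟩
  choose F hF hF' using st
  let B : ∀ k, {b // Fut N (tm k) b} := fun k => Nat.rec ⟨a, 0, tm_pos 0,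
    ha.mono Ioo_subset_Ico_self isOpen_Ioo.uniqueDiffOn⟩ F k
  have hB : ∀ j k, j ≤ k → ∀ t, tm j ≤ t → (B k).1 t = (B j).1 t := by
    intro j k h t ht
    induction k, h using Nat.le_induction with
    | base => rfl
    | succ k h ih => exact (hF k (B k) t ((tm_le h).trans ht)).trans ih
  have hb : ∀ k t, tm k ≤ t → (B ⌈1 / t⌉₊).1 t = (B k).1 t := fun k t ht => by
    have h0 := (tm_small ((tm_pos k).trans_le ht)).le
    rcases le_total k ⌈1 / t⌉₊ with h | h
    · exact hB _ _ h t ht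
    · exact (hB _ _ h t h0).symm
  refine ⟨fun t => (B ⌈1 / t⌉₊).1 t, fut_local fun t ht => ?_,
    fun t ht => hb 0 t (by rwa [tm_zero]), fun x hx => ?_⟩
  · obtain ⟨s, h1, h2⟩ := (B ⌈1 / t⌉₊).2
    have h3 := tm_small ht.1
    refine ⟨_, _, h2, ⟨h1.trans h3, ht.2⟩, ?_, ?_⟩
    · filter_upwards [Ioi_mem_nhds h3] with u hu
      exact propext ⟨fun h => ⟨h1.trans hu, h.2⟩, fun h => ⟨(tm_pos _).trans hu, h.2⟩⟩
    · filter_upwards [Ioi_mem_nhds h3] with u hu
      exact hb _ u (mem_Ioi.1 hu).le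
  · obtain ⟨_, ⟨n, rfl⟩, hn⟩ := mem_iUnion₂.1 (hS' ▸ mem_univ x)
    obtain ⟨η, hη, h⟩ := mem_nhdsGT_iff_exists_Ioo_subset.1 (hx (mem_interior_iff_mem_nhds.1 hn))
    have h1 : tm (Nat.pair n ⌈1 / η⌉₊) < η := (tm_le (Nat.right_le_pair _ _)).trans_lt (tm_small hη)
    have h2 := hF' (Nat.pair n ⌈1 / η⌉₊) (B _)
    rw [Nat.unpair_pair] at h2
    rcases h2 with h2 | h2
    · exact h2 ((hb (Nat.pair n ⌈1 / η⌉₊ + 1) _ (tm_le (Nat.le_succ _))) ▸ h ⟨tm_pos _, h1⟩)
    · exact h2 ((hb (Nat.pair n ⌈1 / η⌉₊ + 1) _ le_rfl) ▸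
        h ⟨tm_pos _, (tm_le (Nat.le_succ _)).trans_lt h1⟩)

/-- Affine change of the parameter. -/
theorem fut_affine (hN : IsSpacetime Reg N) {c : ℝ → N.pt} {s l : ℝ} (hl : 0 < l)
    (hc : IsFutureCurve N 0 (Icc s (s + l)) c) :
    IsFutureCurve N 0 (Icc 0 1) fun x => c (s + x * l) := by
  have hm : MapsTo (fun x : ℝ => s + x * l) (Icc 0 1) (Icc s (s + l)) := fun x hx =>
    ⟨by nlinarith [hx.1], by nlinarith [hx.2]⟩
  have hd : ContDiff ℝ 1 fun x : ℝ => s + x * l := by fun_prop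
  refine ⟨hc.1.comp hd.continuous.continuousOn hm, fun t ht e he => ?_⟩
  obtain ⟨k1, k2⟩ := hc.2 _ (hm ht) e he
  obtain ⟨k3, -, k4⟩ := k2 _ _ rfl rfl
  refine ⟨ContDiffWithinAt.comp t (g := fun s => co e (c s)) k1 hd.contDiffWithinAt hm,
    fun y w hy hw => ?_⟩
  have k5 : HasDerivWithinAt (fun x : ℝ => s + x * l) l (Icc 0 1) t :=
    (((hasDerivAt_id t).mul_const l).const_add s).hasDerivWithinAt.congr_deriv (one_mul l)
  have k6 := ((k1.differentiableWithinAt one_ne_zero).hasDerivWithinAt.scomp t k5 hm).derivWithin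
    (uniqueDiffOn_Icc zero_lt_one t ht)
  have k7 := Fu.smul hN ⟨co_mem he, k3, k4⟩ hl
  rw [hy, hw.trans k6]
  exact ⟨k7.2.1, by rw [neg_zero]; exact k7.2.1.le, k7.2.2⟩

end

open Vale.Agent.P354n

variable {M N N' : Spc} {Reg Reg' : (R4 → ℝ) → Set R4 → Prop}

theorem isom_comp (hM : IsSpacetime Reg M) (hN : IsSpacetime Reg N) (hN' : IsSpacetime Reg' N')
    {κ : M.pt → N.pt} {ι : N.pt → N'.pt} (hκ : Continuous κ) (h : IsIsom κ) (h' : IsIsom ι) :
    IsIsom (ι ∘ κ) := by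
  rintro e e'' F rfl y hy hy'
  obtain ⟨e', he'⟩ := N.cover (κ (inv e y))
  replace he' : On e' (κ (inv e y)) := he'
  have m1 : co e' (κ (inv e y)) ∈ tgt e' := (N.toE e').map_source he'
  have i1 : inv e' (co e' (κ (inv e y))) = κ (inv e y) := (N.toE e').left_inv he'
  obtain ⟨a1, a2, a3⟩ := h e e' _ rfl y hy he'
  obtain ⟨b1, b2, b3⟩ := h' e' e'' _ rfl _ m1 (by rw [i1]; exact hy')
  have ev : (fun y => co e'' ((ι ∘ κ) (inv e y))) =ᶠ[𝓝 y]
      (fun y => co e'' (ι (inv e' y))) ∘ fun y => co e' (κ (inv e y)) := by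
    have c : ContinuousAt (fun y => κ (inv e y)) y :=
      hκ.continuousAt.comp ((M.toE e).continuousAt_symm hy)
    filter_upwards [c.eventually_mem ((N.toE e').open_source.mem_nhds he')] with z hz
    simp only [Function.comp]
    rw [show inv e' (co e' (κ (inv e z))) = κ (inv e z) from (N.toE e').left_inv hz]
  have da := a1.differentiableAt (by simp)
  have db := b1.differentiableAt (by simp)
  have ld : ∀ a, lineDeriv ℝ (fun y => co e'' ((ι ∘ κ) (inv e y))) y a =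
      lineDeriv ℝ (fun y => co e'' (ι (inv e' y))) (co e' (κ (inv e y)))
        (lineDeriv ℝ (fun y => co e' (κ (inv e y))) y a) := fun a => by
    rw [ev.lineDeriv_eq, (db.comp y da).lineDeriv_eq_fderiv, fderiv_comp y db da,
      db.lineDeriv_eq_fderiv, da.lineDeriv_eq_fderiv]
    rfl
  have pt : co e'' ((ι ∘ κ) (inv e y)) = co e'' (ι (inv e' (co e' (κ (inv e y))))) := by
    rw [i1]; rfl
  refine ⟨(b1.comp y a1).congr_of_eventuallyEq ev, fun a b => ?_, ?_⟩
  · beta_reduce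
    rw [ld, ld, pt, ← b2, ← a2]
  · have m2 : co e'' (ι (inv e' (co e' (κ (inv e y))))) ∈ tgt e'' := by
      rw [i1]; exact (N'.toE e'').map_source hy'
    beta_reduce
    rw [ld, pt]
    refine hN'.up.same_cone e'' m2 (t := lineDeriv ℝ (fun y => co e'' (ι (inv e' y)))
      (co e' (κ (inv e y))) (N.X e' (co e' (κ (inv e y))))) ?_ ?_ ?_ (hN'.timelike e'' _ m2).le ?_
    · exact (b2 _ _).symm.trans_lt (hN.timelike e' _ m1)
    · exact ((b2 _ _).symm.trans (a2 _ _).symm).trans_lt (hM.timelike e y hy)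
    · exact (b2 _ _).symm.trans_lt a3
    · exact (hN'.up.symm e'' m2 _ _).trans_lt b3

/-- **B11.** If every future curve of N without end points meets the open part M, and M has no
future extension, then N has none. -/
theorem inherit (hR : ∀ f D, Reg f D → ContinuousOn f D) (hM : IsSpacetime Reg M)
    (hN : IsSpacetime Reg N) [LindelofSpace N.pt] {κ : M.pt → N.pt} (hκ : IsOpenEmbedding κ)
    (hI : IsIsom κ) (hC : ∀ c, IsFutureCurve N 0 (Ioo 0 1) c →
      (∀ x, ¬ Tendsto c (𝓝[<] 1) (𝓝 x) ∧ ¬ Tendsto c (𝓝[>] 0) (𝓝 x)) →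
      ∃ t ∈ Ioo (0 : ℝ) 1, c t ∈ range κ)
    (h : ∀ N' ι c, ¬ IsFutureExtension Reg' M N' ι c) (N' : Spc) (ι : N.pt → N'.pt)
    (c : ℝ → N'.pt) : ¬ IsFutureExtension Reg' N N' ι c := by
  intro H
  have hs := H.spacetime
  have c1 : c 1 ∉ range ι := (H.embedding.isOpen_range.frontier_eq ▸ H.curve_end).2
  obtain ⟨p0, -⟩ := H.curve_mem 0 ⟨le_rfl, zero_lt_one⟩
  have ex : ∀ t : ℝ, ∃ p, t ∈ Ico (0 : ℝ) 1 → ι p = c t := fun t => by
    by_cases k : t ∈ Ico (0 : ℝ) 1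
    · exact (H.curve_mem t k).imp fun p hp _ => hp
    · exact ⟨p0, fun k' => absurd k' k⟩
  choose a ha using ex
  have hc := H.curve.up le_rfl
  have fa : P354p.IsFutureCurve (Up N) 0 (Ico 0 1) a :=
    P354p.IsFutureCurve.pull_map H.embedding hN.up hs.up H.isometry.up (uniqueDiffOn_Ico 0 1)
      ((hc.mono Ico_subset_Icc_self (uniqueDiffOn_Ico 0 1)).congr ha)
  obtain ⟨b, fb, hb, hb0⟩ := past_ext (N := Up N) hR hN.up fa
  have half : ∀ᶠ t in 𝓝[<] (1 : ℝ), t ∈ Ioo (1 / 2 : ℝ) 1 := Ioo_mem_nhdsLT (by norm_num)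
  obtain ⟨t0, ht0, hb1⟩ := hC b (IsFutureCurve.of fb) fun x => ⟨fun hx => by
    have k1 : Tendsto c (𝓝[<] 1) (𝓝 (ι x)) :=
      ((H.embedding.continuous.tendsto x).comp hx).congr' (half.mono fun t ht => by
        simp only [Function.comp]
        rw [hb t ht.1.le, ha t ⟨by linarith [ht.1], ht.2⟩])
    have k2 : Tendsto c (𝓝[<] 1) (𝓝 (c 1)) := by
      refine (H.curve.1 1 ⟨zero_le_one, le_rfl⟩).mono_left ?_
      rw [← nhdsWithin_Ioo_eq_nhdsLT zero_lt_one]
      exact nhdsWithin_mono _ Ioo_subset_Icc_self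
    exact c1 ⟨x, tendsto_nhds_unique k1 k2⟩, hb0 x⟩
  have fι := fb.push_map H.embedding hN.up hs.up H.isometry.up isOpen_Ioo.uniqueDiffOn
  let d : ℝ → N'.pt := fun t => if t < 1 then ι (b t) else c t
  have fd : P354p.IsFutureCurve (Up N') 0 (Ioc 0 1) d := by
    refine fut_local fun t ht => ?_
    rcases ht.2.eq_or_lt with k | k
    · have k2 : (1 / 2 : ℝ) < t := by rw [k]; norm_num
      refine ⟨_, _, hc, Ioc_subset_Icc_self ht, ?_, ?_⟩
      · filter_upwards [Ioi_mem_nhds ht.1] with u hu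
        exact propext ⟨fun h => Ioc_subset_Icc_self h, fun h => ⟨hu, h.2⟩⟩
      · filter_upwards [Ioi_mem_nhds k2] with u hu
        have hu' : 1 / 2 < u := hu
        simp only [d]
        split_ifs with j
        · rw [hb u hu'.le, ha u ⟨by linarith, j⟩]
        · rfl
    · refine ⟨_, _, fι, ⟨ht.1, k⟩, ?_, ?_⟩
      · filter_upwards [Iio_mem_nhds k] with u hu
        exact propext ⟨fun h => ⟨h.1, hu⟩, fun h => Ioo_subset_Ioc_self h⟩
      · filter_upwards [Iio_mem_nhds k] with u hu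
        exact if_pos hu
  have emb : IsOpenEmbedding (ι ∘ κ) := H.embedding.comp hκ
  have nd : d 1 ∉ range (ι ∘ κ) := by
    rintro ⟨p, hp⟩
    exact c1 ⟨κ p, hp.trans (if_neg (lt_irrefl _))⟩
  have l0 : 0 < 1 - t0 := sub_pos.2 ht0.2
  have sub : ∀ l, 0 < l → l ≤ 1 - t0 →
      P354p.IsFutureCurve (Up N') 0 (Icc 0 1) fun x => d (t0 + x * l) := fun l h1 h2 =>
    fut_affine (N := Up N') hs.up h1 (fd.mono (fun t ht => ⟨ht0.1.trans_le ht.1, by
      linarith [ht.2]⟩) (uniqueDiffOn_Icc (by linarith)))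
  obtain ⟨τ, τ0, τ1, hτ, hτ'⟩ := P354v.exit emb.isOpen_range (sub _ l0 le_rfl).1 (by
    obtain ⟨p, hp⟩ := hb1
    refine ⟨p, ?_⟩
    simp only [d, zero_mul, add_zero, if_pos ht0.2, Function.comp, hp]) (by
    rwa [one_mul, add_sub_cancel])
  refine h N' (ι ∘ κ) (fun x => d (t0 + x * (τ * (1 - t0))))
    { spacetime := hs
      embedding := emb
      isometry := isom_comp hM hN hs hκ.continuous hI H.isometry
      proper := fun k => nd (k ▸ mem_univ _)
      curve := IsFutureCurve.of (sub _ (mul_pos τ0 l0) (by nlinarith))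
      curve_mem := fun t ht => ?_
      curve_end := by rwa [one_mul] }
  have := hτ' (t * τ) (mul_nonneg ht.1 τ0.le) (by nlinarith [ht.2])
  rwa [mul_assoc] at this

open Vale.Agent.P354I in
/-- **B11, final form.** Data with one development without future extension are good. -/
theorem good_of {d : Dat} {N : Spc} {j : X → N.pt} (h : IsDev d N j) (h' : NoExt N) : Good d := by
  refine ⟨N, j, h, h', fun N' j' κ k1 k2 k3 k4 => ?_⟩
  have := k1.countable
  refine inherit (fun f D hf => hf.continuousOn) h.spacetime k1.spacetime k2 k3 (fun c a b => ?_) h'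
  obtain ⟨t, ⟨t1, y, hy, t2⟩, -⟩ := k1.cauchy c a b
  exact ⟨t, t1, j y, (k4 y hy).trans t2⟩

end Vale.Agent.P354V
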