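import Vale.Agent.P354.H251.Two

/-!
P354 (helper51): one step of the extension of a future curve to the past.
-/

open scoped ContDiff
open Set Filter Topology Metric

namespace Vale.Agent.P354V

open Vale.Agent.P354p
open Vale.Agent.P354 (Bilin)

/-- The square of the positive part. -/
noncomputable def sq (x : ℝ) : ℝ := max x 0 ^ 2

theorem sq_deriv (x : ℝ) : HasDerivAt sq (2 * max x 0) x := by
  rcases lt_trichotomy x 0 with h | h | h
  · rw [max_eq_right h.le, mul_zero]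
    refine (hasDerivAt_const x (0 : ℝ)).congr_of_eventuallyEq ?_
    filter_upwards [Iio_mem_nhds h] with y hy
    simp [sq, max_eq_right (mem_Iio.1 hy).le]
  · subst h
    rw [max_self, mul_zero, hasDerivAt_iff_isLittleO_nhds_zero]
    refine Asymptotics.IsBigO.trans_isLittleO (g := fun h : ℝ => h ^ 2) ?_
      (Asymptotics.isLittleO_pow_id (by norm_num))
    refine Asymptotics.IsBigO.of_bound' (Eventually.of_forall fun y => ?_)
    rcases le_total y 0 with k | k <;> simp [sq, k, sq_nonneg]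
  · rw [max_eq_left h.le]
    refine (by simpa using hasDerivAt_pow 2 x : HasDerivAt (fun y : ℝ => y ^ 2) (2 * x) x).congr_of_eventuallyEq ?_
    filter_upwards [Ioi_mem_nhds h] with y hy
    simp [sq, max_eq_left (mem_Ioi.1 hy).le]

theorem sq_cd : ContDiff ℝ 1 sq := by
  refine contDiff_one_iff_deriv.2 ⟨fun x => (sq_deriv x).differentiableAt, ?_⟩
  rw [show _root_.deriv sq = fun x => 2 * max x 0 from funext fun x => (sq_deriv x).deriv]
  fun_prop

/-- The parameter slows down and stops on the left of m. -/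
noncomputable def psi (m ε t : ℝ) : ℝ := t + (sq (m - t) - sq (m - ε - t)) / (2 * ε)
noncomputable def psi' (m ε t : ℝ) : ℝ := 1 - (max (m - t) 0 - max (m - ε - t) 0) / ε

theorem psi_cd (m ε : ℝ) : ContDiff ℝ 1 (psi m ε) :=
  contDiff_id.add (((sq_cd.comp (contDiff_const.sub contDiff_id)).sub
    (sq_cd.comp (contDiff_const.sub contDiff_id))).div_const _)

theorem sq_sub_deriv (m t : ℝ) : HasDerivAt (fun t => sq (m - t)) (-(2 * max (m - t) 0)) t := by
  exact ((sq_deriv (m - t)).comp t ((hasDerivAt_id t).const_sub m)).congr_deriv (by ring)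

theorem psi_deriv (m : ℝ) {ε : ℝ} (h : 0 < ε) (t : ℝ) : HasDerivAt (psi m ε) (psi' m ε t) t := by
  refine ((hasDerivAt_id t).add (((sq_sub_deriv m t).sub (sq_sub_deriv (m - ε) t)).div_const
    (2 * ε))).congr_deriv ?_
  unfold psi'
  field_simp
  ring

theorem psi_right {m ε t : ℝ} (h : 0 < ε) (ht : m ≤ t) : psi m ε t = t := by
  simp [psi, sq, max_eq_right (sub_nonpos.2 ht), max_eq_right (show m - ε - t ≤ 0 by linarith)]

theorem psi_mem {m ε t : ℝ} (h : 0 < ε) (ht : t < m + ε) : psi m ε t ∈ Icc (m - ε) (m + ε) := by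
  rcases le_total m t with k | k
  · rw [psi_right h k]; constructor <;> linarith
  have e : ∀ c, psi m ε t = c ↔ sq (m - t) - sq (m - ε - t) = (c - t) * (2 * ε) := fun c => by
    unfold psi; rw [← div_eq_iff (by positivity)]; constructor <;> intro <;> linarith
  have e2 := (e _).1 rfl
  unfold sq at e2
  rw [max_eq_left (sub_nonneg.2 k)] at e2
  rcases le_total (m - ε - t) 0 with j | j
  · rw [max_eq_right j] at e2
    constructor <;> nlinarith [sq_nonneg (m - t), mul_nonneg (sub_nonneg.2 k) (neg_nonneg.2 j)]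
  · rw [max_eq_left j] at e2
    constructor <;> nlinarith

theorem psi'_pos {m ε t : ℝ} (h : 0 < ε) (ht : m - ε < t) : 0 < psi' m ε t := by
  unfold psi'
  rw [max_eq_right (show m - ε - t ≤ 0 by linarith), sub_zero, sub_pos, div_lt_one h]
  exact max_lt (by linarith) h

theorem psi'_zero {m ε t : ℝ} (h : 0 < ε) (ht : t ≤ m - ε) : psi' m ε t = 0 := by
  unfold psi'
  rw [max_eq_left (show 0 ≤ m - t by linarith), max_eq_left (show 0 ≤ m - ε - t by linarith)]
  field_simp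
  ring

variable {N : Spc} {Reg : (R4 → ℝ) → Set R4 → Prop}

/-- Future timelike vectors in a chart. -/
def Fu (N : Spc) (e : N.Chart) (y w : R4) : Prop :=
  y ∈ tgt e ∧ N.g e y w w < 0 ∧ N.g e y w (N.X e y) < 0

theorem Fu.smul (hN : IsSpacetime Reg N) {e : N.Chart} {y w : R4} (h : Fu N e y w) {a : ℝ}
    (ha : 0 < a) : Fu N e y (a • w) := by
  have B := hN.bilin e h.1
  refine ⟨h.1, ?_, ?_⟩
  · rw [B.smul_left, B.smul_right]
    exact mul_neg_of_pos_of_neg ha (mul_neg_of_pos_of_neg ha h.2.1)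
  · rw [B.smul_left]
    exact mul_neg_of_pos_of_neg ha h.2.2

theorem Fu.add (hN : IsSpacetime Reg N) {e : N.Chart} {y v w : R4} (h : Fu N e y v)
    (h' : Fu N e y w) : Fu N e y (v + w) := by
  have B := hN.bilin e h.1
  have k := hN.same_cone e h.1 (hN.timelike e y h.1) h.2.1 h.2.2 h'.2.1.le h'.2.2
  refine ⟨h.1, ?_, ?_⟩
  · rw [B.add_left, B.add_right, B.add_right, hN.symm e h.1 w v]
    linarith [h.2.1, h'.2.1]
  · rw [B.add_left]
    linarith [h.2.2, h'.2.2]

theorem Fu.comb (hN : IsSpacetime Reg N) {e : N.Chart} {y v w : R4} (h : Fu N e y v)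
    (h' : Fu N e y w) {a b : ℝ} (ha : 0 < a) (hb : 0 ≤ b) : Fu N e y (a • v + b • w) := by
  rcases hb.eq_or_lt with k | k
  · rw [← k, zero_smul, add_zero]
    exact h.smul hN ha
  · exact (h.smul hN ha).add hN (h'.smul hN k)

theorem Fu.ne (hN : IsSpacetime Reg N) {e : N.Chart} {y w : R4} (h : Fu N e y w) : w ≠ 0 := by
  rintro rfl
  have k := (hN.bilin e h.1).smul_left 0 0 0
  rw [zero_smul, zero_mul] at k
  exact h.2.1.ne k

theorem Fu.open (hR : ∀ f D, Reg f D → ContinuousOn f D) (hN : IsSpacetime Reg N) {e : N.Chart}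
    {y0 V : R4} (h : Fu N e y0 V) :
    ∃ ρ > 0, ∀ y ∈ ball y0 ρ, ∀ w ∈ ball V ρ, Fu N e y w := by
  have hT : (tgt e : Set R4) ∈ 𝓝 y0 := (N.toE e).open_target.mem_nhds h.1
  have hcg : ∀ a b, ContinuousAt (fun p : R4 × R4 => N.g e p.1 a b) (y0, V) := fun a b =>
    ContinuousAt.comp (g := fun y => N.g e y a b) ((hR _ _ (hN.regular e a b)).continuousAt hT)
      continuousAt_fst
  have hX : ContinuousAt (fun p : R4 × R4 => N.X e p.1) (y0, V) :=
    ContinuousAt.comp (g := N.X e) ((hN.continuous e).continuousAt hT) continuousAt_fst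
  have hexp : ∀ y ∈ (tgt e : Set R4), ∀ a b, N.g e y a b =
      ∑ i, ∑ j, crd i a * crd j b * N.g e y (bas i) (bas j) :=
    fun y hy a b => bilin_expand (hN.bilin e hy) a b
  have c : ∀ Y : R4 × R4 → R4, ContinuousAt Y (y0, V) → N.g e y0 V (Y (y0, V)) < 0 →
      ∀ᶠ p : R4 × R4 in 𝓝 (y0, V), ∑ i, ∑ j, crd i p.2 * crd j (Y p) *
        N.g e p.1 (bas i) (bas j) < 0 := by
    intro Y hY k
    rw [hexp y0 h.1] at k
    have c1 : ContinuousAt (fun p : R4 × R4 => ∑ i, ∑ j, crd i p.2 * crd j (Y p) *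
        N.g e p.1 (bas i) (bas j)) (y0, V) :=
      tendsto_finsetSum _ fun i _ => tendsto_finsetSum _ fun j _ =>
        (((crd i).continuous.comp continuous_snd).continuousAt.mul
          ((crd j).continuous.continuousAt.comp hY)).mul (hcg _ _)
    exact c1.eventually (gt_mem_nhds k)
  obtain ⟨ρ, hρ, hb⟩ := Metric.eventually_nhds_iff_ball.1 (((c _ continuousAt_snd h.2.1).and
    (c _ hX h.2.2)).and (continuousAt_fst.eventually hT))
  refine ⟨ρ, hρ, fun y hy w hw => ?_⟩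
  obtain ⟨⟨k1, k2⟩, k3⟩ := hb (y, w) (by rw [← ball_prod_same]; exact ⟨hy, hw⟩)
  exact ⟨k3, by rw [hexp y k3]; exact k1, by rw [hexp y k3]; exact k2⟩

/-- Being a future curve is a local property. -/
theorem fut_local {I : Set ℝ} {c : ℝ → N.pt} (h : ∀ t ∈ I, ∃ J c', IsFutureCurve N 0 J c' ∧
    t ∈ J ∧ I =ᶠ[𝓝 t] J ∧ c =ᶠ[𝓝 t] c') : IsFutureCurve N 0 I c := by
  refine ⟨fun t ht => ?_, fun t ht e he => ?_⟩
  · obtain ⟨J, c', h1, h2, h3, h4⟩ := h t ht
    exact ((continuousWithinAt_congr_set h3).2 (h1.1 t h2)).congr_of_eventuallyEq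
      (h4.filter_mono nhdsWithin_le_nhds) h4.eq_of_nhds
  · obtain ⟨J, c', h1, h2, h3, h4⟩ := h t ht
    have h5 : (fun s => co e (c s)) =ᶠ[𝓝 t] fun s => co e (c' s) := h4.fun_comp (co e)
    obtain ⟨k1, k2⟩ := h1.2 t h2 e (h4.eq_of_nhds ▸ he)
    refine ⟨(k1.congr_set h3.symm).congr_of_eventuallyEq (h5.filter_mono nhdsWithin_le_nhds)
      h5.eq_of_nhds, fun y w hy hw => k2 y w (h4.eq_of_nhds ▸ hy) ?_⟩
    rw [hw, (h5.filter_mono nhdsWithin_le_nhds).derivWithin_eq h5.eq_of_nhds,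
      derivWithin_congr_set h3]

/-- A curve in a chart. -/
theorem fut_chart (hN : IsSpacetime Reg N) {e : N.Chart} {I : Set ℝ} (hI : IsOpen I)
    {y y' : ℝ → R4} (h1 : ∀ t ∈ I, ContDiffAt ℝ 1 y t) (h2 : ∀ t ∈ I, HasDerivAt y (y' t) t)
    (h3 : ∀ t ∈ I, Fu N e (y t) (y' t)) : IsFutureCurve N 0 I fun t => inv e (y t) := by
  refine isFutureCurve_of_charts hN ((N.toE e).continuousOn_symm.comp
    (fun t ht => (h1 t ht).continuousAt.continuousWithinAt) fun t ht => (h3 t ht).1)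
    hI.uniqueDiffOn fun t ht => ?_
  have heq : ∀ s ∈ I, co e (inv e (y s)) = y s := fun s hs => co_inv (h3 s hs).1
  refine ⟨e, inv_mem (h3 t ht).1, (h1 t ht).contDiffWithinAt.congr heq (heq t ht), ?_⟩
  intro z u hz hu
  rw [derivWithin_congr heq (heq t ht),
    (h2 t ht).hasDerivWithinAt.derivWithin (hI.uniqueDiffOn t ht)] at hu
  rw [hz, hu, heq t ht]
  exact ⟨(h3 t ht).2.1, by rw [neg_zero]; exact (h3 t ht).2.1.le, (h3 t ht).2.2⟩

/-- The data of a future curve in a chart. -/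
theorem fut_data {I : Set ℝ} (hI : IsOpen I) {b : ℝ → N.pt} (hb : IsFutureCurve N 0 I b)
    {e : N.Chart} {t : ℝ} (ht : t ∈ I) (he : On e (b t)) :
    ContDiffAt ℝ 1 (fun s => co e (b s)) t ∧
      Fu N e (co e (b t)) (_root_.deriv (fun s => co e (b s)) t) := by
  obtain ⟨k1, k2⟩ := hb.2 t ht e he
  obtain ⟨k3, -, k4⟩ := k2 _ _ rfl (derivWithin_of_isOpen hI ht).symm
  exact ⟨k1.contDiffAt (hI.mem_nhds ht), co_mem he, k3, k4⟩

/-- Small sets, which can be left along a straight line. -/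
def Small (N : Spc) (U : Set N.pt) : Prop :=
  ∃ (e : N.Chart) (y0 T : R4) (δ : ℝ), 0 < δ ∧ (∀ y ∈ ball y0 (4 * δ), Fu N e y T) ∧
    U = {p | On e p ∧ co e p ∈ ball y0 δ}

theorem exists_small (hR : ∀ f D, Reg f D → ContinuousOn f D) (hN : IsSpacetime Reg N) (p : N.pt) :
    ∃ U, Small N U ∧ U ∈ 𝓝 p := by
  obtain ⟨e, he⟩ := N.cover p
  replace he : On e p := he
  have h0 : Fu N e (co e p) (N.X e (co e p)) :=
    ⟨co_mem he, hN.timelike e _ (co_mem he), hN.timelike e _ (co_mem he)⟩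
  obtain ⟨ρ, hρ, h⟩ := h0.open hR hN
  refine ⟨_, ⟨e, co e p, _, ρ / 4, by positivity, fun y hy => h y ?_ _ (mem_ball_self hρ), rfl⟩, ?_⟩
  · rwa [show 4 * (ρ / 4) = ρ by ring] at hy
  · exact inter_mem ((N.toE e).open_source.mem_nhds he)
      ((N.toE e).continuousAt he (ball_mem_nhds _ (by positivity)))

/-- A future curve on an open interval which contains [m,1). -/
def Fut (N : Spc) (m : ℝ) (b : ℝ → N.pt) : Prop := ∃ s < m, IsFutureCurve N 0 (Ioo s 1) b

theorem step (hR : ∀ f D, Reg f D → ContinuousOn f D) (hN : IsSpacetime Reg N) {U : Set N.pt}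
    (hU : Small N U) {m m' : ℝ} (hm : m < 1) (hm' : m' < m) {b : ℝ → N.pt} (hb : Fut N m b)
    (hbU : b m ∈ U) : ∃ b', Fut N m' b' ∧ (∀ t, m ≤ t → b' t = b t) ∧ b' m' ∉ U := by
  obtain ⟨e, y0, T, δ, hδ, hT, rfl⟩ := hU
  obtain ⟨s, hs, hb⟩ := hb
  obtain ⟨he, hy0⟩ := hbU
  set z : ℝ → R4 := fun s => co e (b s) with hz
  have hmI : m ∈ Ioo s 1 := ⟨hs, hm⟩
  obtain ⟨d0, f0⟩ := fut_data isOpen_Ioo hb hmI he
  obtain ⟨ρ, hρ, hF⟩ := f0.open hR hN
  have hT0 : 0 < ‖T‖ := norm_pos_iff.2 ((hT y0 (mem_ball_self (by positivity))).ne hN)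
  have hd : 0 < m - m' := sub_pos.2 hm'
  obtain ⟨l, hl0, hl⟩ : ∃ l : ℝ, 0 < l ∧ l * (m - m') ^ 2 * ‖T‖ = 2 * δ :=
    ⟨2 * δ / ((m - m') ^ 2 * ‖T‖), by positivity, by field_simp⟩
  have ev : ∀ᶠ t in 𝓝 m, t ∈ Ioo s 1 ∧ On e (b t) ∧ z t ∈ ball y0 δ ∧ z t ∈ ball (z m) (ρ / 2) ∧
      _root_.deriv z t ∈ ball (_root_.deriv z m) ρ ∧ l * (m - t) ^ 2 * ‖T‖ < ρ / 2 := by
    have c1 : ContinuousAt b m := (hb.1 m hmI).continuousAt (isOpen_Ioo.mem_nhds hmI)
    have c2 : ContinuousAt (fun t => l * (m - t) ^ 2 * ‖T‖) m := by fun_prop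
    exact (isOpen_Ioo.eventually_mem hmI).and
      ((c1.eventually_mem ((N.toE e).open_source.mem_nhds he)).and
      ((d0.continuousAt.eventually_mem (isOpen_ball.mem_nhds hy0)).and
      ((d0.continuousAt.eventually_mem (ball_mem_nhds _ (by positivity))).and
      (((d0.derivWithin (m := 0) le_rfl).continuousAt.eventually_mem (ball_mem_nhds _ hρ)).and
      (c2.eventually (gt_mem_nhds (by simpa using hρ)))))))
  obtain ⟨ε2, hε2, hev⟩ := Metric.eventually_nhds_iff_ball.1 ev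
  obtain ⟨ε, hε, hE⟩ : ∃ ε : ℝ, 0 < ε ∧ ∀ t ∈ Icc (m - ε) (m + ε), t ∈ ball m ε2 :=
    ⟨ε2 / 2, by positivity, fun t ht => by
      rw [Real.ball_eq_Ioo]; constructor <;> linarith [ht.1, ht.2]⟩
  set y : ℝ → R4 := fun t => z (psi m ε t) - (l * sq (m - t)) • T with hy
  have hsq : ∀ t, 0 ≤ l * sq (m - t) := fun t => mul_nonneg hl0.le (sq_nonneg _)
  have hsq2 : ∀ t, sq (m - t) ≤ (m - t) ^ 2 := fun t => by
    unfold sq
    rcases le_total (m - t) 0 with k | k
    · rw [max_eq_right k]; nlinarith [sq_nonneg (m - t)]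
    · rw [max_eq_left k]
  have hn : ∀ t x, dist (y t) x ≤ dist (z (psi m ε t)) x + l * sq (m - t) * ‖T‖ := fun t x => by
    refine (dist_triangle _ (z (psi m ε t)) _).trans (le_of_eq ?_)
    rw [add_comm, dist_eq_norm (y t), hy]
    simp only [sub_sub_cancel_left, norm_neg, norm_smul, Real.norm_of_nonneg (hsq t)]
  have hc : IsFutureCurve N 0 (Ioo (m' - (m - m') / 5) (m + ε)) fun t => inv e (y t) := by
    refine fut_chart hN isOpen_Ioo (y' := fun t => psi' m ε t • _root_.deriv z (psi m ε t) +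
      (l * (2 * max (m - t) 0)) • T) (fun t ht => ?_) (fun t ht => ?_) fun t ht => ?_
    · obtain ⟨k1, k2, -⟩ := hev _ (hE _ (psi_mem hε ht.2))
      exact (ContDiffAt.comp t (g := z) (fut_data isOpen_Ioo hb k1 k2).1 (psi_cd m ε).contDiffAt).sub
        ((contDiff_const.mul (sq_cd.comp (contDiff_const.sub contDiff_id))).contDiffAt.smul
          contDiffAt_const)
    · obtain ⟨k1, k2, -⟩ := hev _ (hE _ (psi_mem hε ht.2))
      have k3 := ((fut_data isOpen_Ioo hb k1 k2).1.differentiableAt one_ne_zero).hasDerivAt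
      refine ((k3.scomp t (psi_deriv m hε t)).sub
        (((sq_sub_deriv m t).const_mul l).smul_const T)).congr_deriv ?_
      rw [mul_neg, neg_smul, sub_neg_eq_add]
    · obtain ⟨-, -, k3, k4, k5, -⟩ := hev _ (hE _ (psi_mem hε ht.2))
      have k6 : Fu N e (y t) T := by
        refine hT _ (mem_ball.2 ((hn t y0).trans_lt ?_))
        have k7 : sq (m - t) ≤ 3 / 2 * (m - m') ^ 2 := by
          unfold sq
          rcases le_total (m - t) 0 with k | k
          · rw [max_eq_right k]; nlinarith [sq_nonneg (m - m')]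
          · rw [max_eq_left k]; nlinarith [ht.1]
        have k8 : l * sq (m - t) * ‖T‖ ≤ l * (3 / 2 * (m - m') ^ 2) * ‖T‖ := by gcongr
        nlinarith [mem_ball.1 k3]
      rcases le_or_gt t (m - ε) with k | k
      · rw [psi'_zero hε k, zero_smul, zero_add, max_eq_left (by linarith)]
        exact k6.smul hN (mul_pos hl0 (by linarith))
      · refine (hF _ (mem_ball.2 ((hn t _).trans_lt ?_)) _ k5).comb hN k6 (psi'_pos hε k)
          (by positivity)
        have k7 := (hev t (hE t ⟨k.le, ht.2.le⟩)).2.2.2.2.2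
        have k8 : l * sq (m - t) * ‖T‖ ≤ l * (m - t) ^ 2 * ‖T‖ := by gcongr; exact hsq2 t
        linarith [mem_ball.1 k4]
  have hyb : ∀ t, m ≤ t → t < m + ε → inv e (y t) = b t := fun t h1 h2 => by
    have k : sq (m - t) = 0 := by simp [sq, max_eq_right (sub_nonpos.2 h1)]
    simp only [hy, psi_right hε h1, k, mul_zero, zero_smul, sub_zero, hz]
    exact inv_co (hev t (hE t ⟨by linarith, h2.le⟩)).2.1
  have hm1 : m + ε < 1 := (hev _ (hE _ ⟨by linarith, le_rfl⟩)).1.2
  refine ⟨fun t => if t ≤ m then inv e (y t) else b t, ⟨m' - (m - m') / 5, by linarith,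
    fut_local fun t ht => ?_⟩, fun t ht => ?_, ?_⟩
  · rcases lt_or_ge t (m + ε) with k | k
    · refine ⟨_, _, hc, ⟨ht.1, k⟩, ?_, ?_⟩
      · filter_upwards [Iio_mem_nhds k] with u hu
        exact propext ⟨fun h => ⟨h.1, hu⟩, fun h => ⟨h.1, h.2.trans hm1⟩⟩
      · filter_upwards [Iio_mem_nhds k] with u hu
        split_ifs with c
        · rfl
        · exact (hyb u (not_le.1 c).le hu).symm
    · have k2 : m < t := by linarith
      refine ⟨_, _, hb, ⟨by linarith, ht.2⟩, ?_, ?_⟩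
      · filter_upwards [Ioi_mem_nhds k2] with u hu
        have hu' : m < u := hu
        exact propext ⟨fun h => ⟨by linarith, h.2⟩, fun h => ⟨by linarith, h.2⟩⟩
      · filter_upwards [Ioi_mem_nhds k2] with u hu
        exact if_neg (not_le.2 hu)
  · dsimp only
    split_ifs with c
    · exact hyb t ht (by linarith)
    · rfl
  · simp only [if_pos hm'.le]
    rintro ⟨-, k⟩
    have k3 := (hev _ (hE _ (psi_mem hε (t := m') (by linarith)))).2.2.1
    have k4 : sq (m - m') = (m - m') ^ 2 := by unfold sq; rw [max_eq_left hd.le]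
    have k5 := hn m' y0
    rw [k4, hl] at k5
    rw [co_inv (hT _ (mem_ball.2 (by linarith [mem_ball.1 k3]))).1] at k
    have k6 : ‖(l * sq (m - m')) • T‖ ≤ dist (z (psi m ε m')) y0 + dist (y m') y0 := by
      refine le_trans (le_of_eq ?_) (dist_triangle_right _ _ _)
      rw [dist_eq_norm, hy]
      simp only [sub_sub_cancel]
    rw [norm_smul, Real.norm_of_nonneg (hsq _), k4, hl] at k6
    linarith [mem_ball.1 k3, mem_ball.1 k]

end Vale.Agent.P354V
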